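import Mathlib

/-!
# Row 211 / S0328, package [C-4]: outer containment (measure-free)

A piece `t ∈ [s₁, s₂]` of the radial sweep lies in the cylinder with axis `e + w c` over an explicit
triangle, and its projection along `e + w c` lies in that triangle.

`P n z := z - (inner ℝ z n / ‖n‖ ^ 2) • n` is literally the map of the statement of S0328.
-/

set_option autoImplicit false

namespace Crest.Agent.Helper28.Sweep

/-- Euclidean 3-space. -/
abbrev E3 := EuclideanSpace ℝ (Fin 3)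

/-- The projection along `n` of the statement of S0328, as a linear map. -/
noncomputable def projL (n : E3) : E3 →ₗ[ℝ] E3 where
  toFun z := z - (inner ℝ z n / ‖n‖ ^ 2) • n
  map_add' x y := by
    simp only [inner_add_left, add_div, add_smul]
    abel
  map_smul' r x := by
    simp only [inner_smul_left, RingHom.id_apply, smul_sub, smul_smul, RCLike.conj_to_real,
      mul_div_assoc]

theorem projL_apply (n z : E3) : projL n z = z - (inner ℝ z n / ‖n‖ ^ 2) • n := rfl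

/-- `P n` kills `n` (also when `n = 0`). -/
theorem projL_self (n : E3) : projL n n = 0 := by
  rw [projL_apply]
  by_cases hn : n = 0
  · simp [hn]
  · have h : ‖n‖ ^ 2 ≠ 0 := by
      have : ‖n‖ ≠ 0 := norm_ne_zero_iff.mpr hn
      positivity
    rw [real_inner_self_eq_norm_sq, div_self h, one_smul, sub_self]

/-- Every `z` is its projection plus a multiple of `n`. -/
theorem eq_projL_add (n z : E3) : z = projL n z + (inner ℝ z n / ‖n‖ ^ 2) • n := by
  rw [projL_apply]; abel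

/-- Convex combination of three points of a convex set. -/
theorem convex_comb3 {s : Set E3} (hs : Convex ℝ s) {x y z : E3} (hx : x ∈ s) (hy : y ∈ s)
    (hz : z ∈ s) {a b c : ℝ} (ha : 0 ≤ a) (hb : 0 ≤ b) (hc : 0 ≤ c) (habc : a + b + c = 1) :
    a • x + b • y + c • z ∈ s := by
  have h := hs.sum_mem (t := (Finset.univ : Finset (Fin 3))) (w := ![a, b, c]) (z := ![x, y, z])
    (by intro i _; fin_cases i <;> simp [ha, hb, hc])
    (by simp [Fin.sum_univ_three, habc])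
    (by intro i _; fin_cases i <;> simp [hx, hy, hz])
  simpa [Fin.sum_univ_three, add_assoc] using h

/-- A point of the cone at `v₀` spanned by `u₁, u₂`, cut at total weight `K`, lies in the
triangle `v₀, v₀ + K u₁, v₀ + K u₂`. -/
theorem mem_tri_of_cone (v₀ u₁ u₂ : E3) (K x₁ x₂ : ℝ) (hK : 0 < K) (h1 : 0 ≤ x₁) (h2 : 0 ≤ x₂)
    (h12 : x₁ + x₂ ≤ K) :
    v₀ + x₁ • u₁ + x₂ • u₂ ∈ convexHull ℝ ({v₀, v₀ + K • u₁, v₀ + K • u₂} : Set E3) := by
  have hconv := convex_convexHull ℝ ({v₀, v₀ + K • u₁, v₀ + K • u₂} : Set E3)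
  have m0 : v₀ ∈ convexHull ℝ ({v₀, v₀ + K • u₁, v₀ + K • u₂} : Set E3) :=
    subset_convexHull ℝ _ (by simp)
  have m1 : v₀ + K • u₁ ∈ convexHull ℝ ({v₀, v₀ + K • u₁, v₀ + K • u₂} : Set E3) :=
    subset_convexHull ℝ _ (by simp)
  have m2 : v₀ + K • u₂ ∈ convexHull ℝ ({v₀, v₀ + K • u₁, v₀ + K • u₂} : Set E3) :=
    subset_convexHull ℝ _ (by simp)
  have hK' : K ≠ 0 := hK.ne'
  have key : v₀ + x₁ • u₁ + x₂ • u₂
      = (1 - x₁ / K - x₂ / K) • v₀ + (x₁ / K) • (v₀ + K • u₁) + (x₂ / K) • (v₀ + K • u₂) := by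
    match_scalars <;> field_simp
    ring
  rw [key]
  refine convex_comb3 hconv m0 m1 m2 ?_ (div_nonneg h1 hK.le) (div_nonneg h2 hK.le) (by ring)
  have : x₁ / K + x₂ / K ≤ 1 := by
    rw [← add_div, div_le_one hK]; exact h12
  linarith

/-- The image of a triangle under the projection. -/
theorem projL_image_tri (n x y z : E3) :
    (projL n) '' convexHull ℝ ({x, y, z} : Set E3)
      = convexHull ℝ ({projL n x, projL n y, projL n z} : Set E3) := by
  rw [LinearMap.image_convexHull, Set.image_insert_eq, Set.image_insert_eq, Set.image_singleton]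

/-- **[C-4] Outer containment**, with the map of the statement written out.
The hypothesis `hftc` is the conclusion of the FTC/cone lemma `W1_ftc` on the cell `[s₁, s₂]`. -/
theorem piece_subset_cylinder (e a b p₀ : E3) (L : ℝ) (hL : 0 ≤ L) (R : ℝ → ℝ) (w : ℝ → E3)
    (s₁ s₂ c : ℝ) (hs : s₁ < s₂) (Λ' : ℝ)
    (hftc : ∀ τ ∈ Set.Icc s₁ s₂, ∃ A B : ℝ,
      w τ - w c = A • (a + s₁ • b) + B • (a + s₂ • b) ∧ |A| + |B| ≤ Λ')
    (H m : ℝ) (hH : ∀ τ ∈ Set.Icc s₁ s₂, R τ ≤ H) (hm : L * Λ' ≤ m) (hpos : 0 < H + 3 * m) :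
    let P : E3 → E3 → E3 := fun n z => z - (inner ℝ z n / ‖n‖ ^ 2) • n
    let piece : Set E3 := {x | ∃ τ ∈ Set.Icc s₁ s₂, ∃ ρ ∈ Set.Icc 0 (R τ), ∃ s : ℝ, |s| ≤ L ∧
      x = p₀ + ρ • (a + τ • b) + s • (e + w τ)}
    let v₀ : E3 := p₀ - m • ((a + s₁ • b) + (a + s₂ • b))
    let T : Set E3 := convexHull ℝ {P (e + w c) v₀, P (e + w c) (v₀ + (H + 3 * m) • (a + s₁ • b)),
      P (e + w c) (v₀ + (H + 3 * m) • (a + s₂ • b))}
    piece ⊆ {x | ∃ y ∈ T, ∃ σ : ℝ, x = y + σ • (e + w c)} ∧ P (e + w c) '' piece ⊆ T := by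
  intro P piece v₀ T
  set n : E3 := e + w c with hn
  set u₁ : E3 := a + s₁ • b with hu₁
  set u₂ : E3 := a + s₂ • b with hu₂
  have hT : T = (projL n) '' convexHull ℝ
      ({v₀, v₀ + (H + 3 * m) • u₁, v₀ + (H + 3 * m) • u₂} : Set E3) := by
    rw [projL_image_tri]
    rfl
  -- the key fact: the bracket lies in the flat triangle
  have key : ∀ x ∈ piece, ∃ z ∈ convexHull ℝ
      ({v₀, v₀ + (H + 3 * m) • u₁, v₀ + (H + 3 * m) • u₂} : Set E3), ∃ s : ℝ, x = z + s • n := by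
    rintro x ⟨τ, hτ, ρ, hρ, s, hsL, rfl⟩
    obtain ⟨A, B, hAB, hABle⟩ := hftc τ hτ
    have hΔ : s₂ - s₁ ≠ 0 := sub_ne_zero.mpr hs.ne'
    have hΔpos : 0 < s₂ - s₁ := sub_pos.mpr hs
    set l₁ : ℝ := (s₂ - τ) / (s₂ - s₁) with hl₁
    set l₂ : ℝ := (τ - s₁) / (s₂ - s₁) with hl₂
    have hl₁0 : 0 ≤ l₁ := div_nonneg (sub_nonneg.mpr hτ.2) hΔpos.le
    have hl₂0 : 0 ≤ l₂ := div_nonneg (sub_nonneg.mpr hτ.1) hΔpos.le
    have hl12 : l₁ + l₂ = 1 := by
      rw [hl₁, hl₂, ← add_div]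
      rw [div_eq_one_iff_eq hΔ]; ring
    have hlτ : l₁ * s₁ + l₂ * s₂ = τ := by
      rw [hl₁, hl₂]; field_simp; ring
    -- bounds on s A, s B
    have hA0 := abs_nonneg A
    have hB0 := abs_nonneg B
    have hs0 := abs_nonneg s
    have hsA : |s * A| ≤ m := by
      rw [abs_mul]
      calc |s| * |A| ≤ L * (|A| + |B|) := by nlinarith
        _ ≤ L * Λ' := by nlinarith
        _ ≤ m := hm
    have hsB : |s * B| ≤ m := by
      rw [abs_mul]
      calc |s| * |B| ≤ L * (|A| + |B|) := by nlinarith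
        _ ≤ L * Λ' := by nlinarith
        _ ≤ m := hm
    have hsAB : s * A + s * B ≤ m := by
      calc s * A + s * B ≤ |s * A| + |s * B| := add_le_add (le_abs_self _) (le_abs_self _)
        _ = |s| * (|A| + |B|) := by rw [abs_mul, abs_mul]; ring
        _ ≤ L * (|A| + |B|) := by nlinarith
        _ ≤ L * Λ' := by nlinarith
        _ ≤ m := hm
    have hρ0 : 0 ≤ ρ := hρ.1
    have hρH : ρ ≤ H := le_trans hρ.2 (hH τ hτ)
    refine ⟨v₀ + (m + ρ * l₁ + s * A) • u₁ + (m + ρ * l₂ + s * B) • u₂, ?_, s, ?_⟩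
    · apply mem_tri_of_cone _ _ _ _ _ _ hpos
      · have := (abs_le.mp hsA).1
        have h2 : 0 ≤ ρ * l₁ := mul_nonneg hρ0 hl₁0
        linarith
      · have := (abs_le.mp hsB).1
        have h2 : 0 ≤ ρ * l₂ := mul_nonneg hρ0 hl₂0
        linarith
      · have h3 : ρ * l₁ + ρ * l₂ = ρ := by rw [← mul_add, hl12, mul_one]
        linarith
    · have hwτ : w τ = w c + (A • u₁ + B • u₂) := by
        rw [← hAB]; abel
      rw [hwτ, hn]
      have hu : a + τ • b = l₁ • u₁ + l₂ • u₂ := by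
        rw [hu₁, hu₂, ← hlτ]
        have : a = (l₁ + l₂) • a := by rw [hl12, one_smul]
        nth_rewrite 1 [this]
        module
      rw [hu]
      simp only [v₀]
      module
  constructor
  · intro x hx
    obtain ⟨z, hz, s, rfl⟩ := key x hx
    refine ⟨projL n z, ?_, inner ℝ z n / ‖n‖ ^ 2 + s, ?_⟩
    · rw [hT]; exact ⟨z, hz, rfl⟩
    · nth_rewrite 1 [eq_projL_add n z]
      module
  · rintro y ⟨x, hx, rfl⟩
    obtain ⟨z, hz, s, rfl⟩ := key x hx
    rw [hT]
    refine ⟨z, hz, ?_⟩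
    show projL n z = projL n (z + s • n)
    rw [map_add, map_smul, projL_self, smul_zero, add_zero]

end Crest.Agent.Helper28.Sweep
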